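import Vale.Agent.P299.H598.IX.Fin.Index
import Vale.Agent.P299.H723.PartI

/-!
# P299, Part I: the tensor statement
-/

namespace Vale.Agent.P299.PartI

/-- **Part I**: on a compact connected Kähler manifold with `Ric ≥ 0` there are, for one `k` and
infinitely many `m`, nonzero holomorphic sections of `(Ω¹)^{⊗k} ⊗ (-mK)`. -/
theorem tensorStatement : D.TensorStatement := tensor_of_index IX.indexStatement

end Vale.Agent.P299.PartI
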